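import Crest.Agent.R40.QGrid

/-!
# Row 40: tame colourings, lunes, contacts
-/

set_option autoImplicit false

open Set Filter Topology Metric

namespace Crest.Agent.R40

/-- five disjoint regular open unit-distance-free sets with dense union -/
structure Tame where
  O : Fin 5 → Set ℂ
  isOpen : ∀ i, IsOpen (O i)
  disj : ∀ i j, i ≠ j → Disjoint (O i) (O j)
  dense : Dense (⋃ i, O i)
  indep : ∀ i, ∀ x ∈ O i, ∀ y ∈ O i, dist x y ≠ 1
  reg : ∀ i, interior (closure (O i)) ⊆ O i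

/-- the lune of points inside the unit circle about `p` and outside the one about `q` -/
def lune (p q : ℂ) : Set ℂ := {z | dist z p < 1 ∧ 1 < dist z q}

theorem isOpen_lune (p q : ℂ) : IsOpen (lune p q) :=
  (isOpen_lt (continuous_id.dist continuous_const) continuous_const).inter
    (isOpen_lt continuous_const (continuous_id.dist continuous_const))

theorem exists_unit_of_lune {K : Set ℂ} (hK : IsPreconnected K) {p q z : ℂ} (hp : p ∈ K)
    (hq : q ∈ K) (hz : z ∈ lune p q) : ∃ w ∈ K, dist z w = 1 :=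
  hK.intermediate_value hp hq (f := fun w => dist z w) (by fun_prop) ⟨hz.1.le, hz.2.le⟩

/-- three distinct points lie on at most one unit circle -/
theorem center_unique {a b c z w : ℂ} (hab : a ≠ b) (hac : a ≠ c) (hbc : b ≠ c)
    (ha : dist z a = 1) (hb : dist z b = 1) (hc : dist z c = 1)
    (ha' : dist w a = 1) (hb' : dist w b = 1) (hc' : dist w c = 1) : z = w := by
  by_contra hzw
  have := EuclideanGeometry.eq_of_dist_eq_of_dist_eq_of_finrank_eq_two (V := ℂ) (P := ℂ)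
    Complex.finrank_real_complex (c₁ := z) (c₂ := w) (p₁ := a) (p₂ := b) (p := c) (r₁ := 1)
    (r₂ := 1) hzw hab (by rw [dist_comm, ha]) (by rw [dist_comm, hb]) (by rw [dist_comm, hc])
    (by rw [dist_comm, ha']) (by rw [dist_comm, hb']) (by rw [dist_comm, hc'])
  exact this.elim (fun h => hac h.symm) (fun h => hbc h.symm)

/-- (LN) an open set meeting the unit circle about `p` meets a lune of `p, q` -/
theorem exists_mem_lune {p q u : ℂ} (hpq : p ≠ q) {U : Set ℂ} (hU : IsOpen U) (hu : u ∈ U)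
    (hup : dist u p = 1) : ∃ z ∈ U, z ∈ lune p q ∨ z ∈ lune q p := by
  -- first a point of `U` on the circle about `p` and not on the circle about `q`
  obtain ⟨u, hu, hup, huq⟩ : ∃ u ∈ U, dist u p = 1 ∧ dist u q ≠ 1 := by
    by_contra hne
    push Not at hne
    let γ : ℝ → ℂ := fun t => p + (u - p) * Complex.exp (t * Complex.I)
    have hγ : Continuous γ := by fun_prop
    have hγp : ∀ t, dist (γ t) p = 1 := fun t => by
      simp only [γ, dist_self_add_left, norm_mul, Complex.norm_exp_ofReal_mul_I, mul_one]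
      rwa [← dist_eq_norm]
    have hup' : u - p ≠ 0 := by
      intro h; rw [dist_eq_norm, h] at hup; simp at hup
    obtain ⟨ε, hε, hev⟩ := Metric.mem_nhds_iff.1 (hγ.continuousAt.preimage_mem_nhds (x := 0)
      (hU.mem_nhds (by simpa [γ] using hu)))
    set δ := min (ε / 2) 1 with hδ
    have hδ0 : 0 < δ := lt_min (by linarith) one_pos
    have hδ1 : δ ≤ 1 := min_le_right _ _
    have hδ2 : δ < ε := lt_of_le_of_lt (min_le_left _ _) (by linarith)
    have hinj : ∀ s t : ℝ, s < t → t - s ≤ 2 → γ s ≠ γ t := by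
      intro s t hst h2 h
      have h3 : Complex.exp (s * Complex.I) = Complex.exp (t * Complex.I) :=
        mul_left_cancel₀ hup' (add_left_cancel h)
      obtain ⟨n, hn⟩ := Complex.exp_eq_exp_iff_exists_int.1 h3
      have h4 := congrArg Complex.im hn
      simp at h4
      have hpi := Real.pi_gt_three
      rcases lt_trichotomy n 0 with h | h | h
      · have : (n : ℝ) ≤ -1 := by exact_mod_cast Int.le_sub_one_of_lt h
        nlinarith
      · rw [h] at h4; simp at h4; linarith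
      · have : (1 : ℝ) ≤ n := by exact_mod_cast h
        nlinarith
    have hq : ∀ t, |t| < ε → dist q (γ t) = 1 := fun t ht => by
      rw [dist_comm]; exact hne _ (hev (by simpa using ht)) (hγp t)
    exact hpq (center_unique (hinj (-δ) 0 (by linarith) (by linarith))
      (hinj (-δ) δ (by linarith) (by linarith)) (hinj 0 δ hδ0 (by linarith))
      (by rw [dist_comm, hγp]) (by rw [dist_comm, hγp]) (by rw [dist_comm, hγp])
      (hq _ (by rw [abs_neg, abs_of_pos hδ0]; exact hδ2)) (hq _ (by simpa using hε))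
      (hq _ (by rw [abs_of_pos hδ0]; exact hδ2)))
  let γ : ℝ → ℂ := fun t => p + (t : ℂ) * (u - p)
  have hγ : Continuous γ := by fun_prop
  have hγ1 : γ 1 = u := by simp [γ]
  have hγp : ∀ t, 0 < t → dist (γ t) p = t := fun t ht => by
    simp only [γ, dist_self_add_left, norm_mul, Complex.norm_real, Real.norm_eq_abs, abs_of_pos ht]
    rw [← dist_eq_norm, hup, mul_one]
  have e1 : ∀ᶠ t in 𝓝 (1 : ℝ), γ t ∈ U := hγ.continuousAt.preimage_mem_nhds (hU.mem_nhds (hγ1 ▸ hu))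
  have e2 : ∀ᶠ t in 𝓝 (1 : ℝ), 0 < t := lt_mem_nhds one_pos
  have hc : Tendsto (fun t => dist (γ t) q) (𝓝 1) (𝓝 (dist u q)) := by
    rw [← hγ1]; exact (hγ.dist continuous_const).continuousAt
  rcases lt_or_gt_of_ne huq with h | h
  · obtain ⟨t, ⟨h1, h2, h3⟩, h4⟩ := ((((e1.and (e2.and (hc.eventually (gt_mem_nhds h)))).filter_mono
      nhdsWithin_le_nhds).and (self_mem_nhdsWithin (s := Ioi 1))).exists)
    exact ⟨γ t, h1, Or.inr ⟨h3, by rw [hγp t h2]; exact h4⟩⟩
  · obtain ⟨t, ⟨h1, h2, h3⟩, h4⟩ := ((((e1.and (e2.and (hc.eventually (lt_mem_nhds h)))).filter_mono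
      nhdsWithin_le_nhds).and (self_mem_nhdsWithin (s := Iio 1))).exists)
    exact ⟨γ t, h1, Or.inl ⟨by rw [hγp t h2]; exact h4, h3⟩⟩

namespace Tame

variable (T : Tame)

/-- the closed colour classes -/
def F (i : Fin 5) : Set ℂ := closure (T.O i)

/-- contact of the colours `i`, `j` inside `V` -/
def Ct (V : Set ℂ) (i j : Fin 5) : Prop := ∃ K, Cn K ∧ K ⊆ V ∧ K ⊆ T.F i ∧ K ⊆ T.F j

/-- contact of the colours `i`, `j` at `v` -/
def Γ (v : ℂ) (i j : Fin 5) : Prop := ∀ V ∈ 𝓝 v, T.Ct V i j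

/-- renumbering of the colours -/
def perm (σ : Equiv.Perm (Fin 5)) : Tame where
  O i := T.O (σ i)
  isOpen i := T.isOpen _
  disj i j h := T.disj _ _ (σ.injective.ne h)
  dense := by rw [σ.surjective.iUnion_comp T.O]; exact T.dense
  indep i := T.indep _
  reg i := T.reg _

theorem isClosed_F (i : Fin 5) : IsClosed (T.F i) := isClosed_closure

theorem O_subset (i : Fin 5) : T.O i ⊆ T.F i := subset_closure

theorem exists_F (x : ℂ) : ∃ i, x ∈ T.F i := by
  have := T.dense x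
  rwa [closure_iUnion_of_finite, mem_iUnion] at this

theorem exists_O {U : Set ℂ} (hU : IsOpen U) (hne : U.Nonempty) : ∃ i, ∃ x ∈ U, x ∈ T.O i := by
  obtain ⟨x, hx, hx'⟩ := T.dense.inter_open_nonempty U hU hne
  obtain ⟨i, hi⟩ := mem_iUnion.1 hx'
  exact ⟨i, x, hx, hi⟩

variable {T}

theorem eq_of_O_F {i j : Fin 5} {x : ℂ} (hi : x ∈ T.O i) (hj : x ∈ T.F j) : i = j := by
  by_contra h
  exact disjoint_left.1 ((T.disj i j h).closure_right (T.isOpen i)) hi hj

theorem not_F_of_nhds {i : Fin 5} {x : ℂ} {U : Set ℂ} (hU : U ∈ 𝓝 x) (h : ∀ y ∈ U, y ∉ T.O i) :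
    x ∉ T.F i := fun hx => by
  obtain ⟨y, h1, h2⟩ := mem_closure_iff_nhds.1 hx U hU
  exact h y h1 h2

theorem not_unit {i : Fin 5} {x y : ℂ} (hx : x ∈ T.F i) (hy : y ∈ T.O i) : dist x y ≠ 1 := by
  intro h
  have hc : Continuous fun z : ℂ => y + (z - x) := by fun_prop
  refine not_F_of_nhds (hc.continuousAt.preimage_mem_nhds (x := x)
    ((T.isOpen i).mem_nhds (by simpa using hy))) (fun z hz hz' => T.indep i z hz' _ hz ?_) hx
  rw [← h, dist_eq_norm, dist_eq_norm]; congr 1; ring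

theorem mem_O_of_nhds {i : Fin 5} {x : ℂ} (h : T.F i ∈ 𝓝 x) : x ∈ T.O i :=
  T.reg i (mem_interior_iff_mem_nhds.2 h)

theorem mem_O_of_unique {i : Fin 5} {x : ℂ} (h : ∀ j, j ≠ i → x ∉ T.F j) : x ∈ T.O i := by
  apply mem_O_of_nhds
  have : ∀ᶠ y in 𝓝 x, ∀ j, j ≠ i → y ∉ T.F j :=
    eventually_all.2 fun j => by
      by_cases hj : j = i
      · exact Eventually.of_forall fun _ h => absurd hj h
      · filter_upwards [(T.isClosed_F j).isOpen_compl.mem_nhds (h j hj)] with y hy _ using hy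
  filter_upwards [this] with y hy
  obtain ⟨j, hj⟩ := T.exists_F y
  by_contra hy'
  exact hy j (by rintro rfl; exact hy' hj) hj

/-- lunes of a connected subset of `F i` miss `F i` -/
theorem not_F_of_lune {i : Fin 5} {K : Set ℂ} (hK : IsPreconnected K) (hKF : K ⊆ T.F i) {p q z : ℂ}
    (hp : p ∈ K) (hq : q ∈ K) (hz : z ∈ lune p q) : z ∉ T.F i :=
  not_F_of_nhds ((isOpen_lune p q).mem_nhds hz) fun y hy hy' => by
    obtain ⟨w, hw, hw'⟩ := exists_unit_of_lune hK hp hq hy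
    exact not_unit (hKF hw) hy' (by rw [dist_comm]; exact hw')

theorem dist_le_one {i : Fin 5} {K : Set ℂ} (hK : IsPreconnected K) (hKF : K ⊆ T.F i) {p q : ℂ}
    (hp : p ∈ K) (hq : q ∈ K) : dist p q ≤ 1 := by
  by_contra h
  exact not_F_of_lune hK hKF hp hq ⟨by simp, not_le.1 h⟩ (hKF hp)

/-- an open set at unit distance from a continuum in `F i ∩ F j` has a point outside `F i ∪ F j` -/
theorem exists_free {i j : Fin 5} {K U : Set ℂ} (hK : Cn K) (hi : K ⊆ T.F i) (hj : K ⊆ T.F j)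
    (hU : IsOpen U) {p u : ℂ} (hp : p ∈ K) (hu : u ∈ U) (h : dist u p = 1) :
    ∃ z ∈ U, z ∉ T.F i ∧ z ∉ T.F j := by
  obtain ⟨q, hq, hqp⟩ := hK.ntriv.exists_ne p
  obtain ⟨z, hz, hz'⟩ := exists_mem_lune hqp.symm hU hu h
  exact ⟨z, hz, hz'.elim
    (fun h => ⟨not_F_of_lune hK.conn hi hp hq h, not_F_of_lune hK.conn hj hp hq h⟩)
    (fun h => ⟨not_F_of_lune hK.conn hi hq hp h, not_F_of_lune hK.conn hj hq hp h⟩)⟩

theorem Ct.symm {V : Set ℂ} {i j : Fin 5} (h : T.Ct V i j) : T.Ct V j i := by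
  obtain ⟨K, h1, h2, h3, h4⟩ := h; exact ⟨K, h1, h2, h4, h3⟩

theorem Ct.mono {V W : Set ℂ} {i j : Fin 5} (h : T.Ct V i j) (hVW : V ⊆ W) : T.Ct W i j := by
  obtain ⟨K, h1, h2, h3, h4⟩ := h; exact ⟨K, h1, h2.trans hVW, h3, h4⟩

theorem Ct.exists_left {V : Set ℂ} {i j : Fin 5} (h : T.Ct V i j) : ∃ x ∈ V, x ∈ T.F i := by
  obtain ⟨K, h1, h2, h3, _⟩ := h
  obtain ⟨x, hx⟩ := h1.ntriv.nonempty
  exact ⟨x, h2 hx, h3 hx⟩

theorem Γ.symm {v : ℂ} {i j : Fin 5} (h : T.Γ v i j) : T.Γ v j i := fun V hV => (h V hV).symm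

theorem Γ.mem_left {v : ℂ} {i j : Fin 5} (h : T.Γ v i j) : v ∈ T.F i := by
  by_contra hv
  obtain ⟨x, hx, hx'⟩ := (h _ ((T.isClosed_F i).isOpen_compl.mem_nhds hv)).exists_left
  exact hx hx'

theorem Γ.mem_right {v : ℂ} {i j : Fin 5} (h : T.Γ v i j) : v ∈ T.F j := h.symm.mem_left

variable (T) in
theorem exists_disc (v : ℂ) : ∃ r > 0, (∀ i j, T.Ct (ball v r) i j → T.Γ v i j) ∧
    ∀ i, ∀ x ∈ ball v r, x ∈ T.F i → v ∈ T.F i := by
  have h1 : ∀ᶠ r in 𝓝[>] (0 : ℝ), ∀ i j, T.Ct (ball v r) i j → T.Γ v i j := by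
    refine eventually_all.2 fun i => eventually_all.2 fun j => ?_
    by_cases h : T.Γ v i j
    · exact Eventually.of_forall fun _ _ => h
    · simp only [Γ, not_forall] at h
      obtain ⟨V, hV, h⟩ := h
      obtain ⟨ε, hε, hεV⟩ := Metric.mem_nhds_iff.1 hV
      filter_upwards [Ioo_mem_nhdsGT hε] with r hr h'
      exact absurd (h'.mono ((ball_subset_ball hr.2.le).trans hεV)) h
  have h2 : ∀ᶠ r in 𝓝[>] (0 : ℝ), ∀ i, ∀ x ∈ ball v r, x ∈ T.F i → v ∈ T.F i := by
    refine eventually_all.2 fun i => ?_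
    by_cases h : v ∈ T.F i
    · exact Eventually.of_forall fun _ _ _ _ => h
    · obtain ⟨ε, hε, hεV⟩ := Metric.mem_nhds_iff.1 ((T.isClosed_F i).isOpen_compl.mem_nhds h)
      filter_upwards [Ioo_mem_nhdsGT hε] with r hr x hx hx'
      exact absurd hx' (hεV (ball_subset_ball hr.2.le hx))
  obtain ⟨r, ⟨a, b⟩, c⟩ := ((h1.and h2).and self_mem_nhdsWithin).exists
  exact ⟨r, c, a, b⟩

/-- (PL) along a connected set inside an open set `V` the colours are connected by contacts -/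
theorem cut {V γ : Set ℂ} (hV : IsOpen V) (hγ : IsPreconnected γ) (hγV : γ ⊆ V) {x y : ℂ}
    (hx : x ∈ γ) (hy : y ∈ γ) {i j : Fin 5} (hi : x ∈ T.F i) (hj : y ∈ T.F j) (G : Finset (Fin 5))
    (hiG : i ∈ G) (hjG : j ∉ G) : ∃ a ∈ G, ∃ b ∉ G, T.Ct V a b := by
  have c1 : closure (⋃ a ∈ G, T.O a) = ⋃ a ∈ G, T.F a := G.closure_biUnion T.O
  have c2 : closure (⋃ a ∈ Gᶜ, T.O a) = ⋃ a ∈ Gᶜ, T.F a := Gᶜ.closure_biUnion T.O
  have hcov : ∀ z, z ∈ closure (⋃ a ∈ G, T.O a) ∪ closure (⋃ a ∈ Gᶜ, T.O a) := by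
    intro z
    obtain ⟨k, hk⟩ := T.exists_F z
    rw [c1, c2]
    by_cases h : k ∈ G
    · exact Or.inl (mem_iUnion₂.2 ⟨k, h, hk⟩)
    · exact Or.inr (mem_iUnion₂.2 ⟨k, Finset.mem_compl.2 h, hk⟩)
  obtain ⟨z, hz, hz1, hz2⟩ := isPreconnected_closed_iff.1 hγ _ _ isClosed_closure isClosed_closure
    (fun z _ => hcov z) ⟨x, hx, c1 ▸ mem_iUnion₂.2 ⟨i, hiG, hi⟩⟩
    ⟨y, hy, c2 ▸ mem_iUnion₂.2 ⟨j, Finset.mem_compl.2 hjG, hj⟩⟩
  obtain ⟨K, hK, hKV, hK1, hK2⟩ := exists_cn (isOpen_biUnion fun a _ => T.isOpen a)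
    (isOpen_biUnion fun a _ => T.isOpen a) (by
      rw [disjoint_iUnion₂_left]
      intro a ha
      rw [disjoint_iUnion₂_right]
      intro b hb
      exact T.disj a b (by rintro rfl; exact Finset.mem_compl.1 hb ha))
    (hV.mem_nhds (hγV hz)) (fun z _ => hcov z) hz1 hz2
  obtain ⟨a, ha, K₁, hK₁, h1, h2⟩ := Cn.baire G T.F T.isClosed_F hK (c1 ▸ hK1)
  obtain ⟨b, hb, K₂, hK₂, h3, h4⟩ := Cn.baire Gᶜ T.F T.isClosed_F hK₁ (h1.trans (c2 ▸ hK2))
  exact ⟨a, ha, b, Finset.mem_compl.1 hb, K₂, hK₂, h3.trans (h1.trans hKV), h3.trans h2, h4⟩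

/-- a point of `F a ∩ F b` with a two-coloured neighbourhood gives a contact -/
theorem ct_of_two {V : Set ℂ} (hV : IsOpen V) {a b : Fin 5} (hab : a ≠ b)
    (hcov : ∀ z ∈ V, z ∈ T.F a ∨ z ∈ T.F b) {x : ℂ} (hx : x ∈ V) (ha : x ∈ T.F a)
    (hb : x ∈ T.F b) : T.Ct V a b :=
  exists_cn (T.isOpen a) (T.isOpen b) (T.disj a b hab) (hV.mem_nhds hx) hcov ha hb

end Tame

/-- regularisation -/
theorem exists_tame (U : Fin 5 → Set ℂ) (ho : ∀ i, IsOpen (U i)) (hd : Dense (⋃ i, U i))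
    (hu : ∀ i, ∀ x ∈ U i, ∀ y ∈ U i, dist x y ≠ 1) : Nonempty Tame := by
  let V : Fin 5 → Set ℂ := fun i => U i \ ⋃ j ∈ {j | j < i}, closure (U j)
  have hV : ∀ i, IsOpen (V i) := fun i =>
    (ho i).sdiff ((toFinite _).isClosed_biUnion fun _ _ => isClosed_closure)
  have hVd : ∀ i j, i ≠ j → Disjoint (V i) (V j) := by
    have : ∀ i j, i < j → Disjoint (V i) (V j) := fun i j h =>
      disjoint_left.2 fun x hx hx' => hx'.2 (mem_iUnion₂.2 ⟨i, h, subset_closure hx.1⟩)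
    intro i j h
    rcases lt_or_gt_of_ne h with h | h
    · exact this i j h
    · exact (this j i h).symm
  have hdense : Dense (⋃ i, V i) := by
    rw [dense_iff_inter_open]
    intro W hW hne
    classical
    have hex : ∃ i, (W ∩ U i).Nonempty := by
      obtain ⟨x, hx, hx'⟩ := hd.inter_open_nonempty W hW hne
      obtain ⟨i, hi⟩ := mem_iUnion.1 hx'
      exact ⟨i, x, hx, hi⟩
    obtain ⟨i, ⟨x, hx, hxi⟩, hmin⟩ := WellFounded.has_min wellFounded_lt
      {i | (W ∩ U i).Nonempty} hex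
    refine ⟨x, hx, mem_iUnion.2 ⟨i, hxi, fun h => ?_⟩⟩
    obtain ⟨j, hj, hxj⟩ := mem_iUnion₂.1 h
    exact hmin j (mem_closure_iff.1 hxj W hW hx) hj
  refine ⟨⟨fun i => interior (closure (V i)), fun _ => isOpen_interior, fun i j h => ?_,
    hdense.mono (iUnion_mono fun i => (hV i).subset_interior_closure), fun i x hx y hy h => ?_,
    fun i => interior_mono (closure_minimal interior_subset isClosed_closure)⟩⟩
  · exact ((((hVd i j h).closure_left (hV j)).mono_left interior_subset).closure_right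
      isOpen_interior).mono_right interior_subset
  · have hc : Continuous fun z : ℂ => x + (z - y) := by fun_prop
    obtain ⟨y', h1, h2⟩ := mem_closure_iff_nhds.1 (interior_subset hy) _
      (hc.continuousAt.preimage_mem_nhds (x := y) (isOpen_interior.mem_nhds (by simpa using hx)))
    have hc' : Continuous fun z : ℂ => y' + (z - (x + (y' - y))) := by fun_prop
    obtain ⟨x', h3, h4⟩ := mem_closure_iff_nhds.1 (interior_subset h1) _
      (hc'.continuousAt.preimage_mem_nhds (x := x + (y' - y)) ((hV i).mem_nhds (by simpa using h2)))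
    refine hu i x' h4.1 _ h3.1 ?_
    rw [← h, dist_eq_norm, dist_eq_norm]; congr 1; ring

end Crest.Agent.R40
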