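import Mathlib

/-!
# Row 40: planar topology toolkit
-/

set_option autoImplicit false

open Set Filter Topology Metric

namespace Crest.Agent.R40

/-- nondegenerate continuum -/
structure Cn (K : Set ℂ) : Prop where
  cpt : IsCompact K
  conn : IsPreconnected K
  ntriv : K.Nontrivial

/-- the unit square -/
def Sq : Set (ℝ × ℝ) := Icc 0 1 ×ˢ Icc 0 1

/-- Grid lemma: compatible local potentials on the square have no monodromy along the boundary. -/
theorem grid {A : Type} [AddCommGroup A] (D : ℝ × ℝ → Set (ℝ × ℝ)) (H : ℝ × ℝ → ℝ × ℝ → A)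
    (ξ : ℝ × ℝ → A) (hD : ∀ v ∈ Sq, D v ∈ 𝓝 v)
    (hc : ∀ v ∈ Sq, ∀ w ∈ Sq, ∀ x ∈ Sq, ∀ y ∈ Sq, x ∈ D v → y ∈ D v → x ∈ D w → y ∈ D w →
      H v y - H v x = H w y - H w x)
    (hL : ∀ v ∈ Sq, ∀ x ∈ Sq, ∀ y ∈ Sq, x ∈ D v → y ∈ D v → x.1 = 0 → y.1 = 0 → H v x = H v y)
    (hR : ∀ v ∈ Sq, ∀ x ∈ Sq, ∀ y ∈ Sq, x ∈ D v → y ∈ D v → x.1 = 1 → y.1 = 1 → H v x = H v y)
    (hB : ∀ v ∈ Sq, ∀ x ∈ Sq, ∀ y ∈ Sq, x ∈ D v → y ∈ D v → x.2 = 0 → y.2 = 0 → H v x = H v y)
    (hT : ∀ v ∈ Sq, ∀ x ∈ Sq, ∀ y ∈ Sq, x ∈ D v → y ∈ D v → x.2 = 1 → y.2 = 1 →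
      H v y - H v x = ξ y - ξ x) :
    ξ (0, 1) = ξ (1, 1) := by
  have hcpt : IsCompact Sq := isCompact_Icc.prod isCompact_Icc
  obtain ⟨δ, hδ, hleb⟩ := lebesgue_number_lemma_of_metric (c := fun v : Sq => interior (D v)) hcpt
    (fun _ => isOpen_interior)
    (fun x hx => mem_iUnion.2 ⟨⟨x, hx⟩, mem_interior_iff_mem_nhds.2 (hD x hx)⟩)
  obtain ⟨n, hn⟩ := exists_nat_one_div_lt hδ
  set N := n + 1 with hN
  have hN0 : (0 : ℝ) < N := by positivity
  have hn' : 1 / (N : ℝ) < δ := by rw [hN]; push_cast; exact hn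
  let p : ℕ → ℕ → ℝ × ℝ := fun i j => ((i : ℝ) / N, (j : ℝ) / N)
  have hI : ∀ i ≤ N, (i : ℝ) / N ∈ Icc (0 : ℝ) 1 := fun i hi =>
    ⟨by positivity, (div_le_one hN0).2 (by exact_mod_cast hi)⟩
  have hp : ∀ i ≤ N, ∀ j ≤ N, p i j ∈ Sq := fun i hi j hj => ⟨hI i hi, hI j hj⟩
  have hv : ∀ i j, ∃ v, i ≤ N → j ≤ N → v ∈ Sq ∧ ∀ a ≤ 1, ∀ b ≤ 1, p (i + a) (j + b) ∈ D v := by
    intro i j
    by_cases h : i ≤ N ∧ j ≤ N
    · obtain ⟨v, hv⟩ := hleb _ (hp i h.1 j h.2)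
      refine ⟨v, fun _ _ => ⟨v.2, fun a ha b hb => interior_subset (hv ?_)⟩⟩
      have key : ∀ (i a : ℕ), a ≤ 1 → dist (((i + a : ℕ) : ℝ) / N) ((i : ℝ) / N) < δ := by
        intro i a ha
        rw [Real.dist_eq]; push_cast
        rw [add_div, add_sub_cancel_left, abs_of_nonneg (by positivity)]
        refine lt_of_le_of_lt (div_le_div_of_nonneg_right (by exact_mod_cast ha) hN0.le) hn'
      rw [mem_ball, Prod.dist_eq, max_lt_iff]
      exact ⟨key i a ha, key j b hb⟩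
    · exact ⟨0, fun h1 h2 => absurd ⟨h1, h2⟩ h⟩
  choose v hv using hv
  let h : ℕ → ℕ → A := fun i j => H (v i j) (p (i + 1) j) - H (v i j) (p i j)
  let w : ℕ → ℕ → A := fun i j => H (v i j) (p i (j + 1)) - H (v i j) (p i j)
  have m00 := fun i j hi hj => (hv i j hi hj).2 0 (by omega) 0 (by omega)
  have m10 := fun i j hi hj => (hv i j hi hj).2 1 (by omega) 0 (by omega)
  have m01 := fun i j hi hj => (hv i j hi hj).2 0 (by omega) 1 (by omega)
  have m11 := fun i j hi hj => (hv i j hi hj).2 1 (by omega) 1 (by omega)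
  simp only [add_zero] at m00 m10 m01
  have cell : ∀ i < N, ∀ j < N, h i (j + 1) = h i j + (w (i + 1) j - w i j) := by
    intro i hi j hj
    have e1 := hc _ (hv i (j + 1) hi.le hj).1 _ (hv i j hi.le hj.le).1 _ (hp i hi.le (j + 1) hj) _
      (hp (i + 1) hi (j + 1) hj) (m00 _ _ hi.le hj) (m10 _ _ hi.le hj) (m01 _ _ hi.le hj.le)
      (m11 _ _ hi.le hj.le)
    have e2 := hc _ (hv (i + 1) j hi hj.le).1 _ (hv i j hi.le hj.le).1 _ (hp (i + 1) hi j hj.le) _
      (hp (i + 1) hi (j + 1) hj) (m00 _ _ hi hj.le) (m01 _ _ hi hj.le) (m10 _ _ hi.le hj.le)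
      (m11 _ _ hi.le hj.le)
    simp only [h, w]
    rw [e1, e2]; abel
  have row : ∀ j ≤ N, ∑ i ∈ Finset.range N, h i j = 0 := by
    intro j
    induction j with
    | zero =>
      intro _
      refine Finset.sum_eq_zero fun i hi => ?_
      have hi := Finset.mem_range.1 hi
      exact sub_eq_zero.2 (hB _ (hv i 0 hi.le N.zero_le).1 _ (hp _ hi _ N.zero_le) _
        (hp _ hi.le _ N.zero_le) (m10 _ _ hi.le N.zero_le) (m00 _ _ hi.le N.zero_le)
        (by simp [p]) (by simp [p]))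
    | succ j ih =>
      intro hj
      rw [Finset.sum_congr rfl fun i hi => cell i (Finset.mem_range.1 hi) j hj,
        Finset.sum_add_distrib, ih (by omega), Finset.sum_range_sub (fun i => w i j)]
      have e1 : w N j = 0 := sub_eq_zero.2 (hR _ (hv N j le_rfl (by omega)).1 _ (hp _ le_rfl _ hj) _
        (hp _ le_rfl _ (by omega)) (m01 _ _ le_rfl (by omega)) (m00 _ _ le_rfl (by omega))
        (div_self hN0.ne') (div_self hN0.ne'))
      have e2 : w 0 j = 0 := sub_eq_zero.2 (hL _ (hv 0 j N.zero_le (by omega)).1 _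
        (hp _ N.zero_le _ hj) _ (hp _ N.zero_le _ (by omega)) (m01 _ _ N.zero_le (by omega))
        (m00 _ _ N.zero_le (by omega)) (by simp [p]) (by simp [p]))
      rw [e1, e2]; simp
  have top := row N le_rfl
  rw [Finset.sum_congr rfl fun i hi => hT _ (hv i N (Finset.mem_range.1 hi).le le_rfl).1 _
    (hp _ (Finset.mem_range.1 hi).le _ le_rfl) _ (hp (i + 1) (Finset.mem_range.1 hi) _ le_rfl)
    (m00 _ _ (Finset.mem_range.1 hi).le le_rfl) (m10 _ _ (Finset.mem_range.1 hi).le le_rfl)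
    (div_self hN0.ne') (div_self hN0.ne'), Finset.sum_range_sub (fun i => ξ (p i N)),
    sub_eq_zero] at top
  simpa [p, div_self hN0.ne'] using top.symm

/-- cut-wire theorem -/
theorem cut_wire {E : Type} [TopologicalSpace E] [T2Space E] {X A B : Set E} (hX : IsCompact X)
    (hA : IsClosed A) (hB : IsClosed B)
    (h : ∀ C ⊆ X, IsPreconnected C → (C ∩ A).Nonempty → (C ∩ B).Nonempty → False) :
    ∃ X₁ X₂ : Set E, IsCompact X₁ ∧ IsCompact X₂ ∧ Disjoint X₁ X₂ ∧ X₁ ∪ X₂ = X ∧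
      Disjoint X₁ B ∧ Disjoint X₂ A := by
  have : CompactSpace X := isCompact_iff_compactSpace.1 hX
  have hA' : IsCompact (((↑) : X → E) ⁻¹' A) := (hA.preimage continuous_subtype_val).isCompact
  have hB' : IsCompact (((↑) : X → E) ⁻¹' B) := (hB.preimage continuous_subtype_val).isCompact
  have key : ∀ a : X, ∃ U : Set X, IsClopen U ∧ (a.1 ∈ A → a ∈ U) ∧
      Disjoint U (((↑) : X → E) ⁻¹' B) := by
    intro a
    by_cases ha : a.1 ∈ A
    · have hcov : ((↑) : X → E) ⁻¹' B ⊆ ⋃ s : {s : Set X // IsClopen s ∧ a ∈ s}, (s.1)ᶜ := by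
        intro b hb
        rw [← compl_iInter, ← connectedComponent_eq_iInter_isClopen]
        intro hb'
        refine h (((↑) : X → E) '' connectedComponent a) (by rintro _ ⟨x, _, rfl⟩; exact x.2)
          (isPreconnected_connectedComponent.image _ continuous_subtype_val.continuousOn)
          ⟨a, ⟨a, mem_connectedComponent, rfl⟩, ha⟩ ⟨b, ⟨b, hb', rfl⟩, hb⟩
      obtain ⟨t, ht⟩ := hB'.elim_finite_subcover _ (fun s => s.2.1.compl.isOpen) hcov
      refine ⟨⋂ s ∈ t, s.1, isClopen_biInter_finset fun s _ => s.2.1,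
        fun _ => mem_iInter₂.2 fun s _ => s.2.2, disjoint_left.2 fun b hb hb' => ?_⟩
      obtain ⟨s, hs, hs'⟩ := mem_iUnion₂.1 (ht hb')
      exact hs' (mem_iInter₂.1 hb s hs)
    · exact ⟨∅, isClopen_empty, fun h => absurd h ha, empty_disjoint _⟩
  choose U hU hUa hUB using key
  obtain ⟨t, ht⟩ := hA'.elim_finite_subcover U (fun a => (hU a).isOpen)
    (fun a ha => mem_iUnion.2 ⟨a, hUa a ha⟩)
  have hW : IsClopen (⋃ a ∈ t, U a) := isClopen_biUnion_finset fun a _ => hU a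
  refine ⟨(↑) '' (⋃ a ∈ t, U a), (↑) '' (⋃ a ∈ t, U a)ᶜ,
    hW.isClosed.isCompact.image continuous_subtype_val,
    hW.compl.isClosed.isCompact.image continuous_subtype_val,
    disjoint_image_of_injective Subtype.val_injective disjoint_compl_right, ?_, ?_, ?_⟩
  · rw [← image_union, union_compl_self, image_univ, Subtype.range_coe]
  · rw [disjoint_left]
    rintro _ ⟨x, hx, rfl⟩ hxB
    obtain ⟨a, _, ha⟩ := mem_iUnion₂.1 hx
    exact disjoint_left.1 (hUB a) ha hxB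
  · rw [disjoint_left]
    rintro _ ⟨x, hx, rfl⟩ hxA
    exact hx (ht hxA)

/-- boundary bumping -/
theorem Cn.bump {K U : Set ℂ} (hK : Cn K) {x : ℂ} (hx : x ∈ K) (hU : U ∈ 𝓝 x) :
    ∃ K', Cn K' ∧ K' ⊆ K ∧ K' ⊆ U := by
  obtain ⟨y, hy, hyx⟩ := hK.ntriv.exists_ne x
  obtain ⟨r₀, hr₀, hrU⟩ := nhds_basis_closedBall.mem_iff.1 hU
  have hd : 0 < dist y x := dist_pos.2 hyx
  set r := min r₀ (dist y x) with hr
  have hr0 : 0 < r := lt_min hr₀ hd
  have hX : IsCompact (K ∩ closedBall x r) := hK.cpt.inter_right isClosed_closedBall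
  by_cases h : ∀ C ⊆ K ∩ closedBall x r, IsPreconnected C → (C ∩ {x}).Nonempty →
      (C ∩ sphere x r).Nonempty → False
  · exfalso
    obtain ⟨X₁, X₂, h1, h2, h12, hu, h1B, h2A⟩ := cut_wire hX isClosed_singleton isClosed_sphere h
    have hx1 : x ∈ X₁ := by
      have : x ∈ X₁ ∪ X₂ := hu ▸ ⟨hx, mem_closedBall_self hr0.le⟩
      exact this.resolve_right fun h => disjoint_left.1 h2A h rfl
    obtain ⟨z, _, hz1, hz2⟩ := isPreconnected_closed_iff.1 hK.conn X₁ (X₂ ∪ (ball x r)ᶜ) h1.isClosed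
      (h2.isClosed.union isOpen_ball.isClosed_compl) (fun z hz => by
        by_cases hz' : z ∈ ball x r
        · have : z ∈ X₁ ∪ X₂ := hu ▸ ⟨hz, ball_subset_closedBall hz'⟩
          exact this.elim Or.inl fun h => Or.inr (Or.inl h)
        · exact Or.inr (Or.inr hz')) ⟨x, hx, hx1⟩
      ⟨y, hy, Or.inr fun h => absurd (mem_ball.1 h) (not_lt.2 (min_le_right _ _))⟩
    rcases hz2 with hz2 | hz2
    · exact disjoint_left.1 h12 hz1 hz2
    · have : z ∈ K ∩ closedBall x r := hu ▸ Or.inl hz1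
      exact disjoint_left.1 h1B hz1 (le_antisymm this.2 (not_lt.1 hz2))
  · push Not at h
    obtain ⟨C, hC, hCc, ⟨a, ha, ha'⟩, ⟨b, hb, hb'⟩, -⟩ := h
    have hcl : closure C ⊆ K ∩ closedBall x r := closure_minimal hC hX.isClosed
    refine ⟨closure C, ⟨hX.of_isClosed_subset isClosed_closure hcl, hCc.closure,
      ⟨a, subset_closure ha, b, subset_closure hb, ?_⟩⟩, hcl.trans inter_subset_left,
      hcl.trans (inter_subset_right.trans ((closedBall_subset_closedBall (min_le_left _ _)).trans hrU))⟩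
    rintro rfl
    rw [mem_singleton_iff.1 ha', mem_sphere, dist_self] at hb'
    exact hr0.ne hb'

/-- a continuum covered by finitely many closed sets has a subcontinuum in one of them -/
theorem Cn.baire {ι : Type} (s : Finset ι) (F : ι → Set ℂ) (hF : ∀ i, IsClosed (F i)) :
    ∀ {K : Set ℂ}, Cn K → K ⊆ ⋃ i ∈ s, F i → ∃ i ∈ s, ∃ K', Cn K' ∧ K' ⊆ K ∧ K' ⊆ F i := by
  classical
  induction s using Finset.induction_on with
  | empty => intro K hK h; obtain ⟨x, hx⟩ := hK.ntriv.nonempty; simpa using h hx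
  | insert a s _ ih =>
    intro K hK h
    by_cases ha : K ⊆ F a
    · exact ⟨a, Finset.mem_insert_self _ _, K, hK, le_rfl, ha⟩
    · obtain ⟨x, hx, hxa⟩ := not_subset.1 ha
      obtain ⟨K', hK', h1, h2⟩ := hK.bump hx ((hF a).isOpen_compl.mem_nhds hxa)
      obtain ⟨i, hi, K'', hK'', h3, h4⟩ := ih hK' fun y hy => by
        have := h (h1 hy)
        rw [Finset.set_biUnion_insert] at this
        exact this.resolve_left (h2 hy)
      exact ⟨i, Finset.mem_insert_of_mem hi, K'', hK'', h3.trans h1, h4⟩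

/-- two closed sets covering the square, one missing the right side and one missing the left side,
intersect in a set with a connected subset joining top and bottom -/
theorem square_cross {A B : Set (ℝ × ℝ)} (hA : IsClosed A) (hB : IsClosed B) (hcov : Sq ⊆ A ∪ B)
    (hl : ∀ x ∈ Sq, x.1 = 0 → x ∉ B) (hr : ∀ x ∈ Sq, x.1 = 1 → x ∉ A) :
    ∃ C ⊆ Sq ∩ (A ∩ B), IsPreconnected C ∧ (C ∩ {x | x.2 = 0}).Nonempty ∧
      (C ∩ {x | x.2 = 1}).Nonempty := by
  classical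
  by_contra hne
  have hcpt : IsCompact Sq := isCompact_Icc.prod isCompact_Icc
  have hconv : Convex ℝ Sq := (convex_Icc 0 1).prod (convex_Icc 0 1)
  obtain ⟨X₁, X₂, h1, h2, h12, hu, h1T, h2B⟩ := cut_wire (hcpt.inter_right (hA.inter hB))
    (A := {x : ℝ × ℝ | x.2 = 0}) (B := {x : ℝ × ℝ | x.2 = 1}) (isClosed_eq continuous_snd continuous_const)
    (isClosed_eq continuous_snd continuous_const) fun C hC hc a b => hne ⟨C, hC, hc, a, b⟩
  let ξ : ℝ × ℝ → ℤ := fun x => if x ∈ A then 0 else 1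
  have hD : ∀ v : ℝ × ℝ, ∃ r > 0, (v ∈ X₂ → ball v r ⊆ (X₁ ∪ {x | x.2 = 0})ᶜ) ∧
      (v ∉ X₂ → ball v r ⊆ X₂ᶜ) ∧ (v ∈ X₁ → ball v r ⊆ {x | x.2 = 1}ᶜ) ∧
      (v ∉ X₁ → ball v r ⊆ X₁ᶜ) := by
    intro v
    have aux : ∀ (P : Prop) (Y : Set (ℝ × ℝ)), IsClosed Y → (P → v ∉ Y) →
        ∀ᶠ x in 𝓝 v, P → x ∈ Yᶜ := fun P Y hY h => by
      by_cases hP : P
      · filter_upwards [hY.isOpen_compl.mem_nhds (h hP)] with x hx _ using hx
      · exact Eventually.of_forall fun _ h => absurd h hP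
    obtain ⟨r, hr, h⟩ := Metric.eventually_nhds_iff_ball.1
      ((aux (v ∈ X₂) (X₁ ∪ {x | x.2 = 0}) (h1.isClosed.union
        (isClosed_eq continuous_snd continuous_const)) fun hv h => h.elim
        (fun h => disjoint_left.1 h12 h hv) (fun h => disjoint_left.1 h2B hv h)).and
      ((aux (v ∉ X₂) X₂ h2.isClosed id).and
      ((aux (v ∈ X₁) {x | x.2 = 1} (isClosed_eq continuous_snd continuous_const)
        fun hv h => disjoint_left.1 h1T hv h).and (aux (v ∉ X₁) X₁ h1.isClosed id))))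
    exact ⟨r, hr, fun hv x hx => (h x hx).1 hv, fun hv x hx => (h x hx).2.1 hv,
      fun hv x hx => (h x hx).2.2.1 hv, fun hv x hx => (h x hx).2.2.2 hv⟩
  choose r hr d1 d2 d3 d4 using hD
  -- `ξ` is constant on convex parts of the square missing `X₁ ∪ X₂`
  have const : ∀ W : Set (ℝ × ℝ), Convex ℝ W → W ⊆ X₁ᶜ → W ⊆ X₂ᶜ → ∀ x ∈ Sq, ∀ y ∈ Sq,
      x ∈ W → y ∈ W → ξ x = ξ y := by
    have : ∀ W : Set (ℝ × ℝ), Convex ℝ W → W ⊆ X₁ᶜ → W ⊆ X₂ᶜ → ∀ x ∈ Sq, ∀ y ∈ Sq,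
        x ∈ W → y ∈ W → x ∈ A → y ∈ A := by
      intro W hW w1 w2 x hx y hy hxW hyW hxA
      by_contra hyA
      obtain ⟨z, hz, hz'⟩ := isPreconnected_closed_iff.1 (hconv.inter hW).isPreconnected A B hA hB
        (inter_subset_left.trans hcov) ⟨x, ⟨hx, hxW⟩, hxA⟩
        ⟨y, ⟨hy, hyW⟩, (hcov hy).resolve_left hyA⟩
      have : z ∈ X₁ ∪ X₂ := hu ▸ ⟨hz.1, hz'⟩
      exact this.elim (w1 hz.2) (w2 hz.2)
    intro W hW w1 w2 x hx y hy hxW hyW
    have : x ∈ A ↔ y ∈ A := ⟨this W hW w1 w2 x hx y hy hxW hyW, this W hW w1 w2 y hy x hx hyW hxW⟩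
    simp only [ξ, this]
  have := grid (fun v => ball v (r v)) (fun v x => if v ∈ X₂ then ξ x else 0) ξ
    (fun v _ => ball_mem_nhds v (hr v)) ?_ ?_ ?_ ?_ ?_
  · have e1 : ((0 : ℝ), (1 : ℝ)) ∈ Sq := by simp [Sq]
    have e2 : ((1 : ℝ), (1 : ℝ)) ∈ Sq := by simp [Sq]
    simp [ξ, (hcov e1).resolve_right (hl _ e1 rfl), ‹∀ x ∈ Sq, x.1 = 1 → x ∉ A› _ e2 rfl]
      at this
  · intro v _ w _ x hx y hy xv yv xw yw
    by_cases hv : v ∈ X₂ <;> by_cases hw : w ∈ X₂ <;> simp only [hv, hw, if_true, if_false]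
    · rw [const _ ((convex_ball v _).inter (convex_ball w _))
        (fun z hz h => d1 v hv hz.1 (Or.inl h)) (fun z hz => d2 w hw hz.2) x hx y hy ⟨xv, xw⟩ ⟨yv, yw⟩]
      simp
    · rw [const _ ((convex_ball v _).inter (convex_ball w _))
        (fun z hz h => d1 w hw hz.2 (Or.inl h)) (fun z hz => d2 v hv hz.1) x hx y hy ⟨xv, xw⟩ ⟨yv, yw⟩]
      simp
  · intro v _ x hx y hy _ _ x0 y0
    simp [ξ, (hcov hx).resolve_right (hl _ hx x0), (hcov hy).resolve_right (hl _ hy y0)]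
  · intro v _ x hx y hy _ _ x0 y0
    simp [ξ, ‹∀ x ∈ Sq, x.1 = 1 → x ∉ A› _ hx x0, ‹∀ x ∈ Sq, x.1 = 1 → x ∉ A› _ hy y0]
  · intro v _ x hx y hy xv _ x0 _
    by_cases hv : v ∈ X₂
    · exact absurd (Or.inr x0) (d1 v hv xv)
    · simp [hv]
  · intro v _ x hx y hy xv yv x1 _
    by_cases hv : v ∈ X₂
    · simp [hv]
    · by_cases hv' : v ∈ X₁
      · exact absurd x1 (d3 v hv' xv)
      · simp [hv, const _ (convex_ball v _) (d4 v hv') (d2 v hv) x hx y hy xv yv]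

/-- (P1) the common boundary of two disjoint open sets with locally dense union contains
continua -/
theorem exists_cn {U₁ U₂ D : Set ℂ} (h1 : IsOpen U₁) (h2 : IsOpen U₂) (h12 : Disjoint U₁ U₂)
    {x : ℂ} (hD : D ∈ 𝓝 x) (hcov : D ⊆ closure U₁ ∪ closure U₂) (hx1 : x ∈ closure U₁)
    (hx2 : x ∈ closure U₂) : ∃ K, Cn K ∧ K ⊆ D ∧ K ⊆ closure U₁ ∧ K ⊆ closure U₂ := by
  obtain ⟨r, hr, hrD⟩ := Metric.mem_nhds_iff.1 hD
  obtain ⟨a, haB, ha⟩ := mem_closure_iff_nhds.1 hx1 _ (ball_mem_nhds x hr)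
  obtain ⟨b, hbB, hb⟩ := mem_closure_iff_nhds.1 hx2 _ (ball_mem_nhds x hr)
  have hab : b - a ≠ 0 := by
    intro h; rw [sub_eq_zero] at h; exact disjoint_left.1 h12 ha (h ▸ hb)
  have hc : Continuous fun t : ℝ => (t : ℂ) * Complex.I * (b - a) := by fun_prop
  have ev : ∀ᶠ t : ℝ in 𝓝 0, (a + t * Complex.I * (b - a) ∈ U₁ ∩ ball x r) ∧
      (b + t * Complex.I * (b - a) ∈ U₂ ∩ ball x r) := by
    refine Eventually.and ?_ ?_
    · exact (continuous_const.add hc).continuousAt.preimage_mem_nhds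
        (by simpa using (h1.inter isOpen_ball).mem_nhds ⟨ha, haB⟩)
    · exact (continuous_const.add hc).continuousAt.preimage_mem_nhds
        (by simpa using (h2.inter isOpen_ball).mem_nhds ⟨hb, hbB⟩)
  obtain ⟨ε, hε, hev⟩ := Metric.eventually_nhds_iff.1 ev
  have hev' : ∀ t ∈ Icc (0 : ℝ) 1, _ := fun t ht => hev (y := t * (ε / 2)) (by
    rw [Real.dist_eq, sub_zero, abs_of_nonneg (mul_nonneg ht.1 (by positivity))]
    nlinarith [ht.2])
  let ψ : ℝ × ℝ → ℂ := fun p => a + p.1 * (b - a) + ((p.2 * (ε / 2) : ℝ) : ℂ) * Complex.I * (b - a)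
  have hψ : Continuous ψ := by fun_prop
  have hψB : ∀ p ∈ Sq, ψ p ∈ ball x r := by
    rintro ⟨s, t⟩ ⟨hs, ht⟩
    have := convex_ball x r (hev' t ht).1.2 (hev' t ht).2.2 (sub_nonneg.2 hs.2) hs.1 (by ring)
    convert this using 1
    simp only [ψ, Complex.real_smul]; push_cast; ring
  obtain ⟨C, hC, hCc, ⟨p, hp, hp'⟩, ⟨q, hq, hq'⟩⟩ := square_cross
    (isClosed_closure.preimage hψ) (isClosed_closure.preimage hψ)
    (fun p hp => hcov (hrD (hψB p hp)))
    (fun p hp h0 h => by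
      have : ψ p ∈ U₁ := by
        convert (hev' p.2 hp.2).1.1 using 1
        simp only [ψ, h0]; simp
      exact disjoint_left.1 (h12.closure_right h1) this h)
    (fun p hp h0 h => by
      have : ψ p ∈ U₂ := by
        convert (hev' p.2 hp.2).2.1 using 1
        simp only [ψ, h0]; simp
      exact disjoint_left.1 (h12.closure_left h2) h this)
  have hcpt : IsCompact Sq := isCompact_Icc.prod isCompact_Icc
  have hcl : closure C ⊆ Sq ∩ (ψ ⁻¹' closure U₁ ∩ ψ ⁻¹' closure U₂) := closure_minimal hC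
    (hcpt.isClosed.inter ((isClosed_closure.preimage hψ).inter (isClosed_closure.preimage hψ)))
  refine ⟨ψ '' closure C, ⟨(hcpt.of_isClosed_subset isClosed_closure
    (hcl.trans inter_subset_left)).image hψ, hCc.closure.image _ hψ.continuousOn,
    ⟨_, ⟨p, subset_closure hp, rfl⟩, _, ⟨q, subset_closure hq, rfl⟩, fun h => ?_⟩⟩, ?_, ?_, ?_⟩
  · have hp2 : p.2 = 0 := hp'
    have hq2 : q.2 = 1 := hq'
    have : ((p.1 : ℂ) - q.1 - ((ε / 2 : ℝ) : ℂ) * Complex.I) * (b - a) = 0 := by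
      simp only [ψ, hp2, hq2, zero_mul, one_mul] at h
      push_cast at h ⊢
      linear_combination h
    have := congrArg Complex.im ((mul_eq_zero.1 this).resolve_right hab)
    simp at this
    linarith
  · rintro _ ⟨y, hy, rfl⟩; exact hrD (hψB y (hcl hy).1)
  · rintro _ ⟨y, hy, rfl⟩; exact (hcl hy).2.1
  · rintro _ ⟨y, hy, rfl⟩; exact (hcl hy).2.2

end Crest.Agent.R40
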